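import Vale.Agent.Lib.P356.helper23.Defs

/-!
# P356 pool job F (helper91, second copy): the collar of a region of the square grid

The sites of `A` that lie in a set of `ℓ¹`-diameter at most `R` which leaves `A` number at most
`(2R+1)^2` times the number of boundary edges of `A`.
-/

namespace Vale.Agent.Lib.P356.H91

open Matrix
open Vale.Agent.Lib.P356

/-- Triangle inequality for the grid distance. -/
theorem l1dist_triangle {L : ℕ} (x y z : Fin L × Fin L) :
    l1dist x z ≤ l1dist x y + l1dist y z := by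
  dsimp only [l1dist, Nat.dist]
  omega

/-- Distance zero means equality. -/
theorem eq_of_l1dist_eq_zero {L : ℕ} (x y : Fin L × Fin L) (h : l1dist x y = 0) : x = y := by
  dsimp only [l1dist, Nat.dist] at h
  apply Prod.ext
  · apply Fin.ext; omega
  · apply Fin.ext; omega

/-- One step from `x` toward a different point `y`. -/
theorem exists_step {L : ℕ} (x y : Fin L × Fin L) (hxy : x ≠ y) :
    ∃ x' : Fin L × Fin L, l1dist x x' = 1 ∧ l1dist x' y + 1 = l1dist x y := by
  have h1 := x.1.isLt
  have h2 := y.1.isLt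
  have h3 := x.2.isLt
  have h4 := y.2.isLt
  rcases Nat.lt_trichotomy x.1.val y.1.val with h | h | h
  · refine ⟨(⟨x.1.val + 1, by omega⟩, x.2), ?_, ?_⟩
    · dsimp only [l1dist, Nat.dist]; omega
    · dsimp only [l1dist, Nat.dist]; omega
  · rcases Nat.lt_trichotomy x.2.val y.2.val with h' | h' | h'
    · refine ⟨(x.1, ⟨x.2.val + 1, by omega⟩), ?_, ?_⟩
      · dsimp only [l1dist, Nat.dist]; omega
      · dsimp only [l1dist, Nat.dist]; omega
    · exact absurd (Prod.ext (Fin.ext h) (Fin.ext h')) hxy
    · refine ⟨(x.1, ⟨x.2.val - 1, by omega⟩), ?_, ?_⟩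
      · dsimp only [l1dist, Nat.dist]; omega
      · dsimp only [l1dist, Nat.dist]; omega
  · refine ⟨(⟨x.1.val - 1, by omega⟩, x.2), ?_, ?_⟩
    · dsimp only [l1dist, Nat.dist]; omega
    · dsimp only [l1dist, Nat.dist]; omega

/-- Path lemma: from a site of `A` within distance `n` of a site off `A` there is a boundary
edge whose inner end is within distance `n`. -/
theorem exists_bdry_near {L : ℕ} (A : Finset (Fin L × Fin L)) :
    ∀ n : ℕ, ∀ x y : Fin L × Fin L, x ∈ A → y ∉ A → l1dist x y ≤ n →
      ∃ p ∈ bdry A, l1dist x p.1 ≤ n := by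
  intro n
  induction n with
  | zero =>
    intro x y hx hy hd
    have : x = y := eq_of_l1dist_eq_zero x y (Nat.le_zero.mp hd)
    exact absurd (this ▸ hx) hy
  | succ n ih =>
    intro x y hx hy hd
    have hxy : x ≠ y := fun h => hy (h ▸ hx)
    obtain ⟨x', h1, h2⟩ := exists_step x y hxy
    by_cases hx' : x' ∈ A
    · obtain ⟨p, hp, hpd⟩ := ih x' y hx' hy (by omega)
      refine ⟨p, hp, ?_⟩
      have := l1dist_triangle x x' p.1
      omega
    · refine ⟨(x, x'), (mem_bdry A (x, x')).2 ⟨hx, hx', h1⟩, ?_⟩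
      have h0 : l1dist x x = 0 := by
        dsimp only [l1dist, Nat.dist]; omega
      show l1dist x x ≤ n + 1
      omega

/-- A ball of radius `R` of the grid has at most `(2R+1)^2` points. -/
theorem ball_card_le {L : ℕ} (R : ℕ) (u : Fin L × Fin L) :
    (Finset.univ.filter (fun x : Fin L × Fin L => l1dist x u ≤ R)).card ≤ (2 * R + 1) ^ 2 := by
  have hc : (Finset.range (2 * R + 1) ×ˢ Finset.range (2 * R + 1)).card = (2 * R + 1) ^ 2 := by
    rw [Finset.card_product, Finset.card_range, sq]
  rw [← hc]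
  apply Finset.card_le_card_of_injOn
    (fun x : Fin L × Fin L => (x.1.val + R - u.1.val, x.2.val + R - u.2.val))
  · intro x hx
    have hx' : l1dist x u ≤ R := by simpa using hx
    dsimp only [l1dist, Nat.dist] at hx'
    rw [Finset.mem_coe, Finset.mem_product, Finset.mem_range, Finset.mem_range]
    constructor <;> dsimp only <;> omega
  · intro x hx x' hx' heq
    have h1 : l1dist x u ≤ R := by simpa using hx
    have h2 : l1dist x' u ≤ R := by simpa using hx'
    dsimp only [l1dist, Nat.dist] at h1 h2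
    have e1 : x.1.val + R - u.1.val = x'.1.val + R - u.1.val := congrArg Prod.fst heq
    have e2 : x.2.val + R - u.2.val = x'.2.val + R - u.2.val := congrArg Prod.snd heq
    apply Prod.ext
    · apply Fin.ext; omega
    · apply Fin.ext; omega

theorem collar_card_le (L R : ℕ) {ι : Type*} (X : ι → Finset (Fin L × Fin L))
    (hdiam : ∀ i, ∀ x ∈ X i, ∀ y ∈ X i, l1dist x y ≤ R) (A : Finset (Fin L × Fin L)) :
    (collar X A).card ≤ (2 * R + 1) ^ 2 * (bdry A).card := by
  have hsub : collar X A ⊆ (bdry A).biUnion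
      (fun p => Finset.univ.filter (fun x : Fin L × Fin L => l1dist x p.1 ≤ R)) := by
    intro x hx
    obtain ⟨hxA, i, hxi, y, hyi, hyA⟩ := (mem_collar X A x).1 hx
    obtain ⟨p, hp, hpd⟩ := exists_bdry_near A R x y hxA hyA (hdiam i x hxi y hyi)
    rw [Finset.mem_biUnion]
    exact ⟨p, hp, Finset.mem_filter.mpr ⟨Finset.mem_univ _, hpd⟩⟩
  calc (collar X A).card
      ≤ ((bdry A).biUnion
          (fun p => Finset.univ.filter (fun x : Fin L × Fin L => l1dist x p.1 ≤ R))).card :=
        Finset.card_le_card hsub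
    _ ≤ ∑ p ∈ bdry A,
          (Finset.univ.filter (fun x : Fin L × Fin L => l1dist x p.1 ≤ R)).card :=
        Finset.card_biUnion_le
    _ ≤ ∑ _p ∈ bdry A, (2 * R + 1) ^ 2 :=
        Finset.sum_le_sum (fun p _ => ball_card_le R p.1)
    _ = (2 * R + 1) ^ 2 * (bdry A).card := by
        rw [Finset.sum_const, smul_eq_mul, mul_comm]

end Vale.Agent.Lib.P356.H91
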